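import Vale.Agent.H13.Crouzeix.Lemn
import Vale.Agent.H13.Crouzeix.Conv

namespace Vale.Agent.Results.P123.ConvexLemniscate

open Polynomial Vale.Agent.H13.Crouzeix
open scoped InnerProductSpace

/-- The numerical range of `A`. -/
def numRange {H : Type} [NormedAddCommGroup H] [InnerProductSpace ℂ H] (A : H →L[ℂ] H) : Set ℂ :=
  {z | ∃ x : H, ‖x‖ = 1 ∧ z = ⟪x, A x⟫_ℂ}

/-- `sup |P|` over the numerical range of `A`. -/
noncomputable def supW {H : Type} [NormedAddCommGroup H] [InnerProductSpace ℂ H]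
    (A : H →L[ℂ] H) (P : ℂ[X]) : ℝ :=
  sSup ((fun z => ‖P.eval z‖) '' numRange A)

/-- The operator `P(A)`. -/
noncomputable def app {H : Type} [NormedAddCommGroup H] [InnerProductSpace ℂ H]
    (A : H →L[ℂ] H) (P : ℂ[X]) : H →L[ℂ] H :=
  P.sum fun n c => c • A ^ n

/-- Crouzeix's inequality with constant `2` for the pair `(A, P)`. -/
def Crouzeix2 {H : Type} [NormedAddCommGroup H] [InnerProductSpace ℂ H]
    (A : H →L[ℂ] H) (P : ℂ[X]) : Prop :=
  ‖app A P‖ ≤ 2 * supW A P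

/-- The lemniscate region `{z : |P(z)| ≤ M}`. -/
def region (P : ℂ[X]) (M : ℝ) : Set ℂ := {z | ‖P.eval z‖ ≤ M}

theorem app_eq {H : Type} [NormedAddCommGroup H] [InnerProductSpace ℂ H]
    (A : H →L[ℂ] H) (P : ℂ[X]) : app A P = aeval A P := by
  rw [app, aeval_eq_sum_range, Polynomial.sum_over_range]
  intro n
  exact zero_smul _ _

theorem le_supW {H : Type} [NormedAddCommGroup H] [InnerProductSpace ℂ H]
    (A : H →L[ℂ] H) (P : ℂ[X]) {x : H} (hx : ‖x‖ = 1) : ‖P.eval ⟪x, A x⟫_ℂ‖ ≤ supW A P := by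
  have hsub : (fun z => ‖P.eval z‖) '' numRange A ⊆
      (fun z => ‖P.eval z‖) '' Metric.closedBall (0:ℂ) ‖A‖ := by
    apply Set.image_mono
    rintro z ⟨y, hy, rfl⟩
    rw [mem_closedBall_zero_iff]
    calc ‖⟪y, A y⟫_ℂ‖ ≤ ‖y‖ * ‖A y‖ := norm_inner_le_norm _ _
      _ ≤ ‖y‖ * (‖A‖ * ‖y‖) := mul_le_mul_of_nonneg_left (A.le_opNorm y) (norm_nonneg _)
      _ = ‖A‖ := by rw [hy]; ring
  have hbdd : BddAbove ((fun z => ‖P.eval z‖) '' numRange A) :=
    (((isCompact_closedBall (0:ℂ) ‖A‖).image (by fun_prop)).bddAbove).mono hsub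
  exact le_csSup hbdd ⟨_, ⟨x, hx, rfl⟩, rfl⟩

theorem quad_convex (a b : ℂ) {M : ℝ} (hM : ‖a - b‖ ^ 2 / 2 ≤ M) :
    Convex ℝ {z : ℂ | ‖((X - C a) * (X - C b) : ℂ[X]).eval z‖ ≤ M} := by
  apply convex_of
  intro z hz
  have e1 : ((X - C a) * (X - C b) : ℂ[X]).derivative.eval z = 2 * (z - (a + b) / 2) := by
    simp
    ring
  have e2 : ((X - C a) * (X - C b) : ℂ[X]).derivative.derivative.eval z = 2 := by
    simp
    norm_num
  have e3 : ((X - C a) * (X - C b) : ℂ[X]).eval z =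
      (z - (a + b) / 2) ^ 2 - ((a - b) / 2) ^ 2 := by
    simp
    ring
  rw [e3] at hz
  rw [e1, e2, e3]
  set u := z - (a + b) / 2
  set c := (a - b) / 2 with hc
  have hcn : ‖c‖ ^ 2 * 2 ≤ M := by
    have : ‖c‖ = ‖a - b‖ / 2 := by rw [hc, norm_div]; norm_num
    rw [this]
    linarith
  have h1 : ‖u ^ 2 - c ^ 2‖ ≤ ‖u‖ ^ 2 + ‖c‖ ^ 2 := by
    refine le_trans (norm_sub_le _ _) ?_
    rw [norm_pow, norm_pow]
  rw [norm_mul]
  have h2 : ‖(2:ℂ)‖ = 2 := by norm_num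
  rw [h2]
  have h3 : (2 * ‖u‖) ^ 2 = 4 * ‖u‖ ^ 2 := by ring
  rw [h3]
  linarith

/-- Crouzeix's inequality with constant `2` when the lemniscate region is convex. -/
theorem result :
    (∀ (H : Type) [NormedAddCommGroup H] [InnerProductSpace ℂ H] [CompleteSpace H]
        (A : H →L[ℂ] H) (P : ℂ[X]) (M : ℝ), 0 < M →
        Convex ℝ (region P M) → numRange A ⊆ region P M →
        numRange (app A P) ⊆ Metric.closedBall 0 M ∧ ‖app A P‖ ≤ 2 * M) ∧
    (∀ P : ℂ[X], ∃ M₀ : ℝ, ∀ (H : Type) [NormedAddCommGroup H] [InnerProductSpace ℂ H]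
        [CompleteSpace H] (A : H →L[ℂ] H), M₀ ≤ supW A P → Crouzeix2 A P) ∧
    (∀ (a b : ℂ) (H : Type) [NormedAddCommGroup H] [InnerProductSpace ℂ H]
        [CompleteSpace H] (A : H →L[ℂ] H), 0 < supW A ((X - C a) * (X - C b)) →
        ‖a - b‖ ^ 2 / 2 ≤ supW A ((X - C a) * (X - C b)) →
        Crouzeix2 A ((X - C a) * (X - C b))) := by
  refine ⟨?_, ?_, ?_⟩
  · intro H _ _ _ A P M hM hconv hW
    have h := numRadius_le hM hconv A (fun x hx => hW ⟨x, hx, rfl⟩)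
    rw [app_eq]
    refine ⟨?_, opNorm_le hM.le h⟩
    rintro z ⟨x, hx, rfl⟩
    rw [mem_closedBall_zero_iff]
    have := h x
    rw [hx] at this
    linarith
  · intro P
    obtain ⟨M0, hM0, hM⟩ := exists_threshold P
    refine ⟨M0, ?_⟩
    intro H _ _ _ A hA
    have hpos : 0 < supW A P := lt_of_lt_of_le hM0 hA
    rw [Crouzeix2, app_eq]
    exact opNorm_le hpos.le (numRadius_le hpos (hM _ hA) A (fun x hx => le_supW A P hx))
  · intro a b H _ _ _ A hpos hA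
    rw [Crouzeix2, app_eq]
    exact opNorm_le hpos.le (numRadius_le hpos (quad_convex a b hA) A
      (fun x hx => le_supW A _ hx))

end Vale.Agent.Results.P123.ConvexLemniscate
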